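import Vale.Agent.P235F.Defs
import Vale.Agent.P235.K5.H12.Int
import Vale.Agent.P235.H134.Grid.Planar
import Vale.Agent.P235.XC.H783.OneXDef
import Vale.Agent.P235.ST.H645.Cover
import Vale.Agent.P235.ST.H742.VortexFin

/-! P235: the classes of graphs with bounded `c₁`, in one definition. -/

namespace Vale.Agent.P235U

open Vale.Agent.P235 Vale.Agent.P235.H134 Vale.Agent.P235.K5 Vale.Agent.P235F

/-- `C` bounds `c₁(G)` and the multicommodity flow-cut gap of `G`. -/
def Bd {V : Type} (G : SimpleGraph V) (C : ℝ) : Prop := DistortionLE G C ∧ GapLE G C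

/-- `G` is embedded in a closed surface, orientable or not, of Euler genus at most `g`. -/
def OnSurface (g : ℕ) {V : Type} (G : SimpleGraph V) : Prop :=
  (∃ σ, SurfMap g G σ) ∨ ∃ σ sg, SignMap g G σ sg

/-- `X` is drawn in the plane with at most one crossing. -/
def AtMostOneX {W : Type} (X : SimpleGraph W) : Prop := Planar X ∨ XC.H783.OneX X

/-- `G` is embedded in a surface of Euler genus at most `g`; or is planar with a vortex of depth
`k`; or has no minor `X`; or is a spanning subgraph of a clique sum of graphs each of which is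
planar, or has no minor `K₅`, or has treewidth at most `k`. -/
def Good (k g : ℕ) {W V : Type} (X : SimpleGraph W) (G : SimpleGraph V) : Prop :=
  OnSurface g G ∨ ST.H742.PlaneVortex k V G ∨ ¬ IsMinor X G ∨
    ∃ (m : ℕ) (H : SimpleGraph V), G ≤ H ∧
      CliqueSum m (fun _ B _ => Planar B ∨ ¬ IsMinor (⊤ : SimpleGraph (Fin 5)) B ∨
        TreewidthLE B k) H

end Vale.Agent.P235U
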