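import Vale.Agent.P235U99.Defs
import Vale.Agent.P235Z.Final
import Vale.Agent.P235F.Main
import Vale.Agent.P235.K5.H56.Final5
import Vale.Agent.P235.ST.H645.Non
import Vale.Agent.P235.ST.H742.VortexEnd

/-! P235: one bound for all the classes. -/

namespace Vale.Agent.P235U

open Vale.Agent.P235 Vale.Agent.P235.H134 Vale.Agent.P235.K5 Vale.Agent.P235F

theorem bd_of {V : Type} [Finite V] {G : SimpleGraph V} (hG : G.Connected) {C : ℝ}
    (h : DistortionLE G C) : Bd G C := ⟨h, gap_of hG h⟩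

theorem xp {W : Type} [Finite W] {X : SimpleGraph W} (hc : X.Connected) (h : AtMostOneX X) :
    K5.H56.Z.XPiece X :=
  ⟨W, X, .core inferInstance hc (h.imp_right Or.inl), fun v => {v},
    fun v => by
      have : Nonempty ({v} : Set W) := ⟨⟨v, rfl⟩⟩
      exact ⟨fun a b => by rw [Subsingleton.elim a b]⟩,
    fun _ _ h => Set.disjoint_singleton.2 h, fun a b h => ⟨a, rfl, b, rfl, h⟩⟩

theorem surf : ∃ A : ℝ, 1 ≤ A ∧ ∀ (g : ℕ) (V : Type) [Finite V] (G : SimpleGraph V),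
    G.Connected → OnSurface g G → DistortionLE G (A * Real.log (g + 2)) := by
  obtain ⟨C, hC, h, -⟩ := ST.H945.planarNear
  refine ⟨70000000 * (2 * C + 2), by linarith, fun g V _ G hG hs => ?_⟩
  have hl := ST.H690.log_lb g
  have e : C ≤ 2 * C * Real.log ((g : ℝ) + 2) := by nlinarith
  rcases hs with hs | hs
  · exact (ST.H690.surf_c hC h g V G hG hs).mono (by nlinarith)
  · exact (ST.H645.sign_c hC h g V G hG hs).mono (by nlinarith)

theorem good : ∃ A : ℝ, 1 ≤ A ∧ ∀ (k : ℕ) (W : Type) [Finite W] (X : SimpleGraph W),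
    X.Connected → AtMostOneX X → ∃ C : ℝ, 0 ≤ C ∧ ∀ (g : ℕ) (V : Type) [Finite V]
      (G : SimpleGraph V), G.Connected → Good k g X G →
        DistortionLE G (A * (C + Real.log (g + 2))) := by
  obtain ⟨A, hA, h1⟩ := surf
  obtain ⟨-, -, A0, h3⟩ := Vale.Agent.P235Z.final
  refine ⟨A, hA, fun k W _ X hX hx => ?_⟩
  obtain ⟨K1, h2⟩ := ST.H742.planar_vortex k
  obtain ⟨K2, h4⟩ := K5.H56.Z.xPiece_free (xp hX hx)
  obtain ⟨K3, h5, -⟩ := h3 k
  refine ⟨|K1| + |K2| + |K3|, by positivity, fun g V _ G hG h => ?_⟩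
  have hl := ST.H690.log_lb g
  have a1 := le_abs_self K1
  have a2 := le_abs_self K2
  have a3 := le_abs_self K3
  have b1 := abs_nonneg K1
  have b2 := abs_nonneg K2
  have b3 := abs_nonneg K3
  have e : |K1| + |K2| + |K3| ≤ A * (|K1| + |K2| + |K3| + Real.log ((g : ℝ) + 2)) := by nlinarith
  rcases h with h | h | h | ⟨m, H, hH, h⟩
  · exact (h1 g V G hG h).mono (by nlinarith)
  · exact (h2 V G hG h).mono (by linarith)
  · exact (h4 V G hG h).mono (by linarith)
  · exact (h5 m V G H hG hH h).mono (by linarith)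

theorem union : ∃ A : ℝ, ∀ (k : ℕ) (W : Type) [Finite W] (X : SimpleGraph W),
    X.Connected → AtMostOneX X → ∃ C : ℝ, ∀ (g : ℕ) (V : Type) [Finite V]
      (G : SimpleGraph V), G.Connected →
      (Good k g X G → Bd G (A * (C + Real.log (g + 2)))) ∧
      ∀ (t : ℕ) (S : Set V), S.ncard ≤ t → (∀ u ∉ S, Good k g X (G.induce (compSet G S u))) →
        Bd G (A * (C + Real.log (g + 2) + Real.log (t + 2))) := by
  obtain ⟨A, hA, h⟩ := good
  obtain ⟨B, hB, hap⟩ := apex_log'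
  refine ⟨B * A, fun k W _ X hX hx => ?_⟩
  obtain ⟨C, hC, h⟩ := h k W X hX hx
  refine ⟨C, fun g V _ G hG => ?_⟩
  have hl := ST.H690.log_lb g
  have h0 : 0 ≤ A * (C + Real.log ((g : ℝ) + 2)) := by nlinarith
  refine ⟨fun hg => bd_of hG ((h g V G hG hg).mono (by nlinarith)), fun t S hS hc => bd_of hG ?_⟩
  have ht := ST.H690.log_lb t
  refine (hap _ h0 t V G hG S hS fun u hu => h g _ _ (comp_connected hu) (hc u hu)).mono ?_
  rw [mul_assoc]
  exact mul_le_mul_of_nonneg_left (by nlinarith) (by linarith)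

theorem family (F : (V : Type) → SimpleGraph V → Prop) (hF : MinorClosed F)
    (h : ∃ (W : Type) (_ : Finite W) (X : SimpleGraph W), X.Connected ∧ AtMostOneX X ∧ ¬ F W X) :
    ∃ C : ℝ, ∀ (V : Type) [Finite V] (G : SimpleGraph V), G.Connected → F V G → Bd G C := by
  obtain ⟨W, _, X, hX, hx, hn⟩ := h
  obtain ⟨C, hC⟩ := K5.H56.Z.final5.2.2.2.2.1 F hF (Or.inl ⟨W, inferInstance, X, hX, xp hX hx, hn⟩)
  exact ⟨C, fun V _ G hG h => bd_of hG (hC V G hG h)⟩

end Vale.Agent.P235U
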